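import Mathlib
import Vale.Agent.P052.Defs
import Vale.Agent.P052.R2.H38.Asm

/-!
# P052: the explicit nine-dimensional example

The rank-one orthogonal projectors of `ℝ⁴`, inside the space of `4 × 4` matrices with the
Frobenius metric.
-/

namespace Vale.Agent.P052X

open Metric P052.H97

/-- `4 × 4` real matrices with the Frobenius (Euclidean) metric. -/
abbrev M4 := EuclideanSpace ℝ (Fin 4 × Fin 4)

/-- The rank-one orthogonal projectors `x xᵀ`, `x` a unit vector of `ℝ⁴`. -/
def projectors : Set (EuclideanSpace ℝ (Fin 4 × Fin 4)) :=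
  {A | ∃ x : EuclideanSpace ℝ (Fin 4), ‖x‖ = 1 ∧ ∀ i j, A (i, j) = x i * x j}

/-- The symmetric matrices of trace one. -/
def symTraceOne : Set (EuclideanSpace ℝ (Fin 4 × Fin 4)) :=
  {A | (∀ i j, A (i, j) = A (j, i)) ∧ ∑ i, A (i, i) = 1}

/-- In every cover of `Y` by `k` sets, some set meets `Y` in a subset with the same diameter as
`Y`: the set `Y` cannot be covered by `k` sets of smaller diameter. -/
def NoSmallerCover {E : Type} [PseudoMetricSpace E] (Y : Set E) (k : ℕ) : Prop :=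
  ∀ P : Fin k → Set E, Y ⊆ ⋃ i, P i → ∃ i, Metric.diam (P i ∩ Y) = Metric.diam Y

/-- the matrix `x xᵀ`. -/
noncomputable def pr (x : EuclideanSpace ℝ (Fin 4)) : M4 :=
  WithLp.toLp 2 (fun p => x p.1 * x p.2)

theorem projectors_eq : projectors = pr '' sphere 0 1 := by
  ext A
  constructor
  · rintro ⟨x, hx, hA⟩
    refine ⟨x, by simpa using hx, ?_⟩
    ext ⟨i, j⟩
    simp [pr, hA]
  · rintro ⟨x, hx, rfl⟩
    exact ⟨x, by simpa using hx, fun i j => rfl⟩

theorem continuous_pr : Continuous pr := by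
  unfold pr
  refine (PiLp.continuous_toLp 2 _).comp (continuous_pi fun p => ?_)
  fun_prop

/-- the linear part of the parametrisation of the symmetric trace one matrices. -/
noncomputable def lin (v : EuclideanSpace ℝ (Fin 9)) : M4 :=
  WithLp.toLp 2 (fun p => (!![(v 6 + v 7 + v 8) / 2, v 0 / √2, v 1 / √2, v 2 / √2;
    v 0 / √2, (v 6 - v 7 - v 8) / 2, v 3 / √2, v 4 / √2;
    v 1 / √2, v 3 / √2, (-v 6 + v 7 - v 8) / 2, v 5 / √2;
    v 2 / √2, v 4 / √2, v 5 / √2, (-v 6 - v 7 + v 8) / 2] : Matrix (Fin 4) (Fin 4) ℝ) p.1 p.2)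

theorem sq2 : (√2 : ℝ) * √2 = 2 := Real.mul_self_sqrt (by norm_num)

theorem sq2ne : (√2 : ℝ) ≠ 0 := by positivity

noncomputable def linL : EuclideanSpace ℝ (Fin 9) →ₗ[ℝ] M4 where
  toFun := lin
  map_add' v w := by
    ext ⟨i, j⟩
    fin_cases i <;> fin_cases j <;> simp [lin] <;> ring
  map_smul' a v := by
    ext ⟨i, j⟩
    fin_cases i <;> fin_cases j <;> simp [lin] <;> ring

theorem norm_lin (v : EuclideanSpace ℝ (Fin 9)) : ‖lin v‖ = ‖v‖ := by
  refine (pow_left_inj₀ (norm_nonneg _) (norm_nonneg _) (two_ne_zero)).mp ?_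
  rw [EuclideanSpace.norm_sq_eq, EuclideanSpace.norm_sq_eq, Fintype.sum_prod_type]
  have h2 : (√2 : ℝ) ^ 2 = 2 := Real.sq_sqrt (by norm_num)
  simp only [Fin.sum_univ_succ, Fin.sum_univ_zero, Real.norm_eq_abs, sq_abs]
  simp [lin, div_pow, h2]
  ring

noncomputable def linI : EuclideanSpace ℝ (Fin 9) →ₗᵢ[ℝ] M4 where
  toLinearMap := linL
  norm_map' := norm_lin

/-- the matrix `I / 4`. -/
noncomputable def ctr : M4 := WithLp.toLp 2 (fun p => if p.1 = p.2 then 1 / 4 else 0)

/-- the affine isometry `v ↦ I / 4 + lin v`. -/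
noncomputable def emb : EuclideanSpace ℝ (Fin 9) →ᵃⁱ[ℝ] M4 :=
  (AffineIsometryEquiv.constVAdd ℝ M4 ctr).toAffineIsometry.comp linI.toAffineIsometry

theorem emb_apply (v : EuclideanSpace ℝ (Fin 9)) : emb v = ctr + lin v := rfl

theorem emb_phi {x : EuclideanSpace ℝ (Fin 4)} (hx : ‖x‖ = 1) : emb (phi x) = pr x := by
  have h1 := norm_sq_eq x
  rw [hx] at h1
  have h2 := sq2ne
  rw [emb_apply]
  ext ⟨i, j⟩
  fin_cases i <;> fin_cases j <;> simp [ctr, lin, phi, pr] <;> linarith [h1]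

theorem range_emb : Set.range emb = symTraceOne := by
  have h2 := sq2ne
  ext A
  constructor
  · rintro ⟨v, rfl⟩
    refine ⟨fun i j => ?_, ?_⟩
    · rw [emb_apply]
      fin_cases i <;> fin_cases j <;> simp [ctr, lin]
    · rw [emb_apply]
      simp [ctr, lin, Fin.sum_univ_succ]
      ring
  · rintro ⟨hs, ht⟩
    refine ⟨WithLp.toLp 2 ![√2 * A (0, 1), √2 * A (0, 2), √2 * A (0, 3), √2 * A (1, 2),
      √2 * A (1, 3), √2 * A (2, 3), (A (0, 0) + A (1, 1) - A (2, 2) - A (3, 3)) / 2,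
      (A (0, 0) - A (1, 1) + A (2, 2) - A (3, 3)) / 2,
      (A (0, 0) - A (1, 1) - A (2, 2) + A (3, 3)) / 2], ?_⟩
    rw [emb_apply]
    simp only [Fin.sum_univ_four] at ht
    ext ⟨i, j⟩
    fin_cases i <;> fin_cases j <;> simp [ctr, lin] <;>
      first
      | exact hs _ _
      | linarith [ht]

theorem preimage_emb : emb ⁻¹' projectors = phi '' sphere 0 1 := by
  ext v
  rw [projectors_eq]
  constructor
  · rintro ⟨x, hx, hv⟩
    refine ⟨x, hx, emb.injective ?_⟩
    rw [emb_phi (by simpa using hx), hv]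
  · rintro ⟨x, hx, rfl⟩
    exact ⟨x, hx, (emb_phi (by simpa using hx)).symm⟩

theorem dist_pr_sq {x y : EuclideanSpace ℝ (Fin 4)} (hx : ‖x‖ = 1) (hy : ‖y‖ = 1) :
    dist (pr x) (pr y) ^ 2 = 2 - 2 * inner ℝ x y ^ 2 := by
  rw [← emb_phi hx, ← emb_phi hy, emb.dist_map, dist_phi_sq hx hy]

theorem isCompact_projectors : IsCompact projectors := by
  rw [projectors_eq]
  exact (isCompact_sphere 0 1).image continuous_pr

theorem projectors_subset : projectors ⊆ symTraceOne := by
  rw [projectors_eq, ← range_emb]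
  rintro _ ⟨x, hx, rfl⟩
  exact ⟨phi x, emb_phi (by simpa using hx)⟩

theorem core : Core := core_of_data Vale.Agent.P052.H38.not_isData

/-- In every cover of the projectors by ten sets, and for every `δ < √2`, some set contains two
projectors at distance larger than `δ`. -/
theorem cover_ten (P : Fin 10 → Set M4) (hP : projectors ⊆ ⋃ i, P i) (δ : ℝ) (hδ : δ < √2) :
    ∃ i, ∃ A ∈ P i ∩ projectors, ∃ B ∈ P i ∩ projectors, δ < dist A B := by
  classical
  have hmem : ∀ x : EuclideanSpace ℝ (Fin 4), ‖x‖ = 1 → pr x ∈ projectors := fun x hx =>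
    ⟨x, hx, fun _ _ => rfl⟩
  have hneg : ∀ x, pr (-x) = pr x := by
    intro x
    ext p
    simp [pr]
  let c : EuclideanSpace ℝ (Fin 4) → Fin 10 := fun x =>
    if h : ∃ i, pr x ∈ P i then h.choose else 0
  have hc : ∀ x, c (-x) = c x := by
    intro x
    simp only [c, hneg]
  have hcm : ∀ x, ‖x‖ = 1 → pr x ∈ P (c x) := by
    intro x hx
    have h1 : ∃ i, pr x ∈ P i := Set.mem_iUnion.mp (hP (hmem x hx))
    simp only [c, dif_pos h1]
    exact h1.choose_spec
  set δ' := max δ 0 with hδ'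
  have hδ0 : 0 ≤ δ' := le_max_right _ _
  have hδ2 : δ' < √2 := max_lt hδ (by positivity)
  have hδsq : δ' ^ 2 < 2 := by
    have := pow_lt_pow_left₀ hδ2 hδ0 (two_ne_zero)
    rwa [Real.sq_sqrt (by norm_num)] at this
  have hη : 0 < (1 - δ' ^ 2 / 2) / 2 := by linarith
  obtain ⟨x, y, hx, hy, hxy, hle⟩ := core c hc (√((1 - δ' ^ 2 / 2) / 2)) (Real.sqrt_pos.mpr hη)
  refine ⟨c x, pr x, ⟨hcm x hx, hmem x hx⟩, pr y, ⟨hxy ▸ hcm y hy, hmem y hy⟩, ?_⟩
  refine lt_of_le_of_lt (le_max_left δ 0) ?_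
  have h3 : (inner ℝ x y : ℝ) ^ 2 ≤ (1 - δ' ^ 2 / 2) / 2 := by
    rw [← Real.sq_sqrt hη.le, ← sq_abs (inner ℝ x y : ℝ)]
    exact pow_le_pow_left₀ (abs_nonneg _) hle 2
  have h4 : δ' ^ 2 < dist (pr x) (pr y) ^ 2 := by
    rw [dist_pr_sq hx hy]
    nlinarith only [h3, hδsq]
  exact lt_of_pow_lt_pow_left₀ 2 dist_nonneg h4

theorem dist_le_of_mem {A B : M4} (hA : A ∈ projectors) (hB : B ∈ projectors) :
    dist A B ≤ √2 := by
  rw [projectors_eq] at hA hB
  obtain ⟨x, hx, rfl⟩ := hA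
  obtain ⟨y, hy, rfl⟩ := hB
  apply Real.le_sqrt_of_sq_le
  rw [dist_pr_sq (by simpa using hx) (by simpa using hy)]
  nlinarith only [sq_nonneg (inner ℝ x y : ℝ)]

theorem diam_projectors : Metric.diam projectors = √2 := by
  refine le_antisymm (Metric.diam_le_of_forall_dist_le (by positivity)
    fun A hA B hB => dist_le_of_mem hA hB) ?_
  refine le_of_forall_lt fun δ hδ => ?_
  obtain ⟨_, A, hA, B, hB, h⟩ := cover_ten (fun _ => Set.univ) (by
    intro A _
    exact Set.mem_iUnion.mpr ⟨0, Set.mem_univ _⟩) δ hδ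
  exact h.trans_le (Metric.dist_le_diam_of_mem isCompact_projectors.isBounded hA.2 hB.2)

/-- In every cover of the projectors by ten sets, some set meets them in a set of full
diameter. -/
theorem cover_ten_diam (P : Fin 10 → Set M4) (hP : projectors ⊆ ⋃ i, P i) :
    ∃ i, Metric.diam (P i ∩ projectors) = √2 := by
  by_contra hcon
  push Not at hcon
  have hbd := isCompact_projectors.isBounded
  have hlt : ∀ i, Metric.diam (P i ∩ projectors) < √2 := fun i =>
    lt_of_le_of_ne (diam_projectors ▸ Metric.diam_mono Set.inter_subset_right hbd) (hcon i)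
  obtain ⟨i₀, hi₀⟩ := Finite.exists_max (fun i => Metric.diam (P i ∩ projectors))
  obtain ⟨i, A, hA, B, hB, h⟩ := cover_ten P hP _ (hlt i₀)
  have := (Metric.dist_le_diam_of_mem (hbd.subset Set.inter_subset_right) hA hB).trans (hi₀ i)
  linarith

theorem image_preimage_emb : emb '' (emb ⁻¹' projectors) = projectors :=
  Set.image_preimage_eq_of_subset (range_emb ▸ projectors_subset)

theorem isCompact_preimage : IsCompact (emb ⁻¹' projectors) := by
  rw [preimage_emb]
  exact (isCompact_sphere 0 1).image continuous_phi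

theorem diam_preimage : Metric.diam (emb ⁻¹' projectors) = √2 := by
  rw [← emb.isometry.diam_image, image_preimage_emb, diam_projectors]

theorem cover_preimage (P : Fin 10 → Set (EuclideanSpace ℝ (Fin 9)))
    (hP : emb ⁻¹' projectors ⊆ ⋃ i, P i) :
    ∃ i, Metric.diam (P i ∩ emb ⁻¹' projectors) = √2 := by
  obtain ⟨i, hi⟩ := cover_ten_diam (fun i => emb '' P i) (by
    rw [← image_preimage_emb, ← Set.image_iUnion]
    exact Set.image_mono hP)
  refine ⟨i, ?_⟩
  rw [← emb.isometry.diam_image, Set.image_inter_preimage, hi]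

theorem noSmallerCover_projectors : NoSmallerCover projectors 10 := by
  intro P hP
  rw [diam_projectors]
  exact cover_ten_diam P hP

theorem noSmallerCover_preimage : NoSmallerCover (emb ⁻¹' projectors) 10 := by
  intro P hP
  rw [diam_preimage]
  exact cover_preimage P hP

/-- A compact set of positive diameter has a finite cover by subsets of smaller diameter. -/
theorem exists_smallerCover {d : ℕ} {Y : Set (EuclideanSpace ℝ (Fin d))} (hY : IsCompact Y)
    (hpos : 0 < Metric.diam Y) : ∃ k, Vale.Agent.P052.IsSmallerCover Y k := by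
  obtain ⟨t, -, htf, ht⟩ := hY.finite_cover_balls (e := Metric.diam Y / 4) (by linarith)
  obtain ⟨n, f, hf⟩ := htf.fin_param
  refine ⟨n, fun i => Y ∩ ball (f i) (Metric.diam Y / 4), ?_, fun i => ?_⟩
  · refine Set.Subset.antisymm (Set.iUnion_subset fun i => Set.inter_subset_left) fun y hy => ?_
    obtain ⟨z, hz, hyz⟩ := Set.mem_iUnion₂.mp (ht hy)
    obtain ⟨i, rfl⟩ : z ∈ Set.range f := hf.2 ▸ hz
    exact Set.mem_iUnion.mpr ⟨i, hy, hyz⟩
  · have h1 : Metric.diam (Y ∩ ball (f i) (Metric.diam Y / 4)) ≤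
        Metric.diam (ball (f i) (Metric.diam Y / 4)) :=
      Metric.diam_mono Set.inter_subset_right isBounded_ball
    have h2 := Metric.diam_ball (x := f i) (r := Metric.diam Y / 4) (by linarith)
    linarith

theorem smallerCover_mono {d : ℕ} {Y : Set (EuclideanSpace ℝ (Fin d))} (hpos : 0 < Metric.diam Y)
    {k m : ℕ} (h : Vale.Agent.P052.IsSmallerCover Y k) (hkm : k ≤ m) :
    Vale.Agent.P052.IsSmallerCover Y m := by
  obtain ⟨P, hP, hlt⟩ := h
  refine ⟨fun j => if h : j.val < k then P ⟨j.val, h⟩ else ∅, ?_, fun j => ?_⟩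
  · rw [← hP]
    refine Set.Subset.antisymm (Set.iUnion_subset fun j => ?_) (Set.iUnion_subset fun i => ?_)
    · split_ifs with h
      · exact Set.subset_iUnion P _
      · exact Set.empty_subset _
    · refine Set.subset_iUnion_of_subset (Fin.castLE hkm i) ?_
      simp
  · dsimp only
    split_ifs with h
    · exact hlt _
    · simpa using hpos

theorem not_borsuk (d : ℕ) (hd : 9 ≤ d) : ¬ Vale.Agent.P052.BorsukConjecture d := by
  intro hB
  obtain ⟨Y, hY, hpos, hcov⟩ := Vale.Agent.P052.H38.borsuk_nine d hd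
  have h1 := hB Y hY.isBounded hpos
  have h2 : Vale.Agent.P052.IsSmallerCover Y (Vale.Agent.P052.borsukNumber Y) :=
    Nat.sInf_mem (s := {k : ℕ | Vale.Agent.P052.IsSmallerCover Y k})
      (exists_smallerCover hY hpos)
  obtain ⟨P, hP, hlt⟩ := smallerCover_mono hpos h2 h1
  obtain ⟨i, hi⟩ := hcov P hP
  exact absurd hi (hlt i).ne

end Vale.Agent.P052X
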